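import Vale.Agent.P070.Statement
import Vale.Agent.P070.H500.Defs
import Vale.Agent.P070.H500.Main

namespace Vale.Agent.Results.P070.NaimarkContinuum

open Vale.Agent.P070.Naimark

universe u v w

/-- (1) There is a unital C*-algebra with property (N) which is not isomorphic to the algebra of
compact operators on any Hilbert space; it is infinite-dimensional, has a faithful irreducible
representation, has exactly `2 ^ ℵ₀` elements, is simple, has no nonzero compact operator in the
range of any irreducible representation, and one of its elements has a one-dimensional kernel in
every irreducible representation. (2) For every nonempty set `J` there is a C*-algebra `B` whose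
irreducible representations, up to unitary equivalence, are indexed by `J`, and none of which has
a nonzero compact operator in its range; `B` is unital if `J` is finite. No hypothesis beyond the
standard axioms is used. -/
theorem result : (∃ (A : Type) (_ : CStarAlgebra A),
      PropertyN.{0, v} A ∧ ¬ IsCompacts.{0, w} A ∧ ¬ FiniteDimensional ℂ A ∧
      HasFaithfulIrrep.{0, 0} A ∧ Cardinal.mk A = Cardinal.continuum ∧ IsSimpleAlg A ∧
      CompactFree.{0, v} A ∧ HasLineElement.{0, v} A) ∧
    ∀ J : Type u, Nonempty J → ∃ (B : Type u) (_ : NonUnitalCStarAlgebra B),
      IrrepsIndexedBy.{u, v, u} B J ∧ CompactFree.{u, v} B ∧ ¬ IsCompacts.{u, v} B ∧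
      (Finite J → ∃ e : B, ∀ b : B, e * b = b ∧ b * e = b) :=
  strong

end Vale.Agent.Results.P070.NaimarkContinuum
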