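import Vale.Agent.P070.Statement
import Vale.Agent.P070.H500.Defs
import Vale.Agent.P070.H443.Final

namespace Vale.Agent.Results.P070.NaimarkEmbeds

open Vale.Agent.P070.Naimark

universe u v w

/-- (1) There is a unital C*-algebra with property (N) which is not isomorphic to the algebra of
compact operators on any Hilbert space. (2) Every separable C*-algebra `D` embeds in a unital
simple C*-algebra `A` with property (N) which is not isomorphic to the algebra of compact
operators on any Hilbert space and has exactly `2 ^ ℵ₀` elements. (3) If `D` is unital and nonzero,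
then `A` and the embedding can be chosen so that the unit of `D` goes to the unit of `A`. No
hypothesis beyond the standard axioms is used. -/
theorem result :
    (∃ (A : Type) (_ : CStarAlgebra A),
      PropertyN.{0, v} A ∧ ¬ IsCompacts.{0, w} A ∧ ¬ FiniteDimensional ℂ A ∧
      HasFaithfulIrrep.{0, 0} A) ∧
    (∀ (D : Type u) [NonUnitalCStarAlgebra D] [TopologicalSpace.SeparableSpace D],
      ∃ (A : Type) (_ : CStarAlgebra A),
        PropertyN.{0, v} A ∧ ¬ IsCompacts.{0, w} A ∧ ¬ FiniteDimensional ℂ A ∧
        HasFaithfulIrrep.{0, 0} A ∧ IsSimpleAlg A ∧ Cardinal.mk A = Cardinal.continuum ∧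
        ∃ f : D →⋆ₙₐ[ℂ] A, Function.Injective f) ∧
    ∀ (D : Type u) [CStarAlgebra D] [Nontrivial D] [TopologicalSpace.SeparableSpace D],
      ∃ (A : Type) (_ : CStarAlgebra A),
        PropertyN.{0, v} A ∧ ¬ IsCompacts.{0, w} A ∧ ¬ FiniteDimensional ℂ A ∧
        HasFaithfulIrrep.{0, 0} A ∧ IsSimpleAlg A ∧ Cardinal.mk A = Cardinal.continuum ∧
        ∃ f : D →⋆ₐ[ℂ] A, Function.Injective f := by
  refine ⟨?_, embeds, embeds_unital⟩
  obtain ⟨A, _, h1, h2, h3, h4, -⟩ := embeds_unital.{0, v, w} ℂ
  exact ⟨A, inferInstance, h1, h2, h3, h4⟩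

end Vale.Agent.Results.P070.NaimarkEmbeds
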