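import Vale.Agent.P070.Statement
import Vale.Agent.P070.H500.Defs
import Vale.Agent.P070.H500S.Defs
import Vale.Agent.P070.H500S.Final

namespace Vale.Agent.Results.P070.NaimarkSpectrum

open Vale.Agent.P070.Naimark

universe u v w

/-- (1) There is a unital C*-algebra with property (N) which is not isomorphic to the algebra of
compact operators on any Hilbert space. (2) Every nonempty locally compact Hausdorff space `X` is
the spectrum of a C*-algebra `B` none of whose irreducible representations has a nonzero compact
operator in its range; `B` has a unit if and only if `X` is compact, and `B` has `2 ^ ℵ₀` elements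
if `X` is separable. No hypothesis beyond the standard axioms is used. -/
theorem result :
    (∃ (A : Type) (_ : CStarAlgebra A), PropertyN.{0, v} A ∧ ¬ IsCompacts.{0, w} A) ∧
    ∀ (X : Type u) [TopologicalSpace X] [T2Space X] [LocallyCompactSpace X] [Nonempty X],
      ∃ (B : Type u) (_ : NonUnitalCStarAlgebra B),
        SpectrumIs.{u, v, u} B X ∧ CompactFree.{u, v} B ∧ ¬ IsCompacts.{u, v} B ∧
        ((∃ e : B, ∀ b : B, e * b = b ∧ b * e = b) ↔ CompactSpace X) ∧
        (TopologicalSpace.SeparableSpace X → Cardinal.mk B = Cardinal.continuum) :=
  prescribed

end Vale.Agent.Results.P070.NaimarkSpectrum
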